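import Mathlib

/-!
T1, row MOM (spec free).  For an even nonnegative weight `w` on any type `H` and any observable
`l : H → ℝ` with all exponential moments, the four-copy inequality
`(∑ w e^{t l})^4 ≤ (∑ w)^3 ∑ w e^{2 t l}` gives `L(2^n t) ≥ 4^n L(t)` and
`exp (Var l / 2) ≤ E e^l`; for a Gaussian mass form `Θ` and a real background `f` it gives
`U(f) ≤ ⟨f, U''(0) f⟩ / 2`.
-/

open Filter Topology

namespace Vale.Agent.P159.TM.H551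

section core

variable {H : Type*}

/-- `∑ w e^{t l}` -/
noncomputable def mg (w l : H → ℝ) (t : ℝ) : ℝ := ∑' h, w h * Real.exp (t * l h)

/-- `1 + x²/2 ≤ cosh x` -/
lemma cosh_low (x : ℝ) : 1 + x ^ 2 / 2 ≤ Real.cosh x := by
  have h1 : Real.cosh x = 1 + 2 * Real.sinh (x / 2) ^ 2 := by
    have h2 := Real.cosh_two_mul (x / 2)
    have h3 := Real.cosh_sq (x / 2)
    rw [show 2 * (x / 2) = x by ring] at h2
    rw [h2, h3]
    ring
  have h2 : (x / 2) ^ 2 ≤ Real.sinh (x / 2) ^ 2 := by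
    rw [sq_le_sq]
    rcases le_total 0 (x / 2) with h | h
    · rw [abs_of_nonneg h, abs_of_nonneg (Real.sinh_nonneg_iff.2 h)]
      exact Real.self_le_sinh_iff.2 h
    · rw [abs_of_nonpos h, abs_of_nonpos (Real.sinh_nonpos_iff.2 h), ← Real.sinh_neg]
      exact Real.self_le_sinh_iff.2 (by linarith)
  rw [h1]
  nlinarith

variable {w l : H → ℝ}

lemma mg_zero : mg w l 0 = ∑' h, w h := by simp [mg]

lemma mg_nonneg (hw : ∀ h, 0 ≤ w h) (t : ℝ) : 0 ≤ mg w l t :=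
  tsum_nonneg fun h => mul_nonneg (hw h) (Real.exp_nonneg _)

/-- iteration of the four replica inequality -/
theorem iter (hw : ∀ h, 0 ≤ w h) (hZ : 0 < mg w l 0)
    (four : ∀ t, mg w l t ^ 4 ≤ mg w l 0 ^ 3 * mg w l (2 * t)) (n : ℕ) (t : ℝ) :
    (mg w l t / mg w l 0) ^ (4 ^ n) ≤ mg w l (2 ^ n * t) / mg w l 0 := by
  induction n generalizing t with
  | zero => simp
  | succ n ih =>
    have h2 : (mg w l t / mg w l 0) ^ 4 ≤ mg w l (2 * t) / mg w l 0 := by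
      rw [div_pow, div_le_div_iff₀ (by positivity) hZ]
      calc _ ≤ (mg w l 0 ^ 3 * mg w l (2 * t)) * mg w l 0 :=
            mul_le_mul_of_nonneg_right (four t) hZ.le
        _ = _ := by ring
    have h3 := ih (2 * t)
    have h4 : 0 ≤ (mg w l t / mg w l 0) ^ 4 := by
      have := mg_nonneg (l := l) hw t
      positivity
    rw [pow_succ, mul_comm (4 ^ n) 4, pow_mul]
    refine (pow_le_pow_left₀ h4 h2 _).trans (h3.trans (le_of_eq ?_))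
    congr 2
    ring

lemma mg_pos (hw : ∀ h, 0 ≤ w h) (hs : ∀ t : ℝ, Summable fun h => w h * Real.exp (t * l h))
    (hZ : 0 < mg w l 0) (t : ℝ) : 0 < mg w l t := by
  by_contra hn
  have h0 : mg w l t = 0 := le_antisymm (not_lt.1 hn) (mg_nonneg hw t)
  have h1 : ∀ h, w h * Real.exp (t * l h) = 0 := by
    have := (hasSum_zero_iff_of_nonneg (fun h => mul_nonneg (hw h) (Real.exp_nonneg (t * l h)))).1
      (by have := (hs t).hasSum; unfold mg at h0; rwa [h0] at this)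
    exact fun h => congrFun this h
  have h2 : ∀ h, w h = 0 := fun h =>
    (mul_eq_zero.1 (h1 h)).resolve_right (Real.exp_pos _).ne'
  simp [mg, h2] at hZ

/-- `4^n log E e^{t l} ≤ log E e^{2^n t l}` -/
theorem log_iter (hw : ∀ h, 0 ≤ w h) (hs : ∀ t : ℝ, Summable fun h => w h * Real.exp (t * l h))
    (hZ : 0 < mg w l 0)
    (four : ∀ t, mg w l t ^ 4 ≤ mg w l 0 ^ 3 * mg w l (2 * t)) (n : ℕ) (t : ℝ) :
    4 ^ n * Real.log (mg w l t / mg w l 0) ≤ Real.log (mg w l (2 ^ n * t) / mg w l 0) := by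
  have h1 := iter hw hZ four n t
  have h2 := mg_pos hw hs hZ t
  have h3 := Real.log_le_log (by positivity) h1
  rw [Real.log_pow] at h3
  exact_mod_cast h3

lemma summable_sq (hw : ∀ h, 0 ≤ w h)
    (hs : ∀ t : ℝ, Summable fun h => w h * Real.exp (t * l h)) :
    Summable fun h => w h * l h ^ 2 := by
  refine Summable.of_nonneg_of_le (fun h => mul_nonneg (hw h) (sq_nonneg _)) (fun h => ?_)
    ((hs 1).add (hs (-1)))
  have h1 := cosh_low (l h)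
  rw [Real.cosh_eq] at h1
  rw [← mul_add]
  refine mul_le_mul_of_nonneg_left ?_ (hw h)
  rw [one_mul, neg_one_mul]
  nlinarith [sq_nonneg (l h)]

/-- second order lower bound `Z + t²/2 ∑ w l² ≤ ∑ w e^{t l}` -/
lemma second_low (hw : ∀ h, 0 ≤ w h)
    (hs : ∀ t : ℝ, Summable fun h => w h * Real.exp (t * l h))
    (hev : ∀ t, mg w l (-t) = mg w l t) (t : ℝ) :
    mg w l 0 + t ^ 2 / 2 * ∑' h, w h * l h ^ 2 ≤ mg w l t := by
  have e : mg w l t = ∑' h, w h * Real.cosh (t * l h) := by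
    have h1 : mg w l t = (mg w l t + mg w l (-t)) / 2 := by rw [hev]; ring
    rw [h1]
    unfold mg
    rw [← (hs t).tsum_add (hs (-t)), ← tsum_div_const]
    refine tsum_congr fun h => ?_
    rw [Real.cosh_eq, neg_mul]
    ring
  have s0 : Summable fun h => w h := by
    have := hs 0
    simpa using this
  have s2 := (summable_sq hw hs).mul_left (t ^ 2 / 2)
  have s3 : Summable fun h => w h * Real.cosh (t * l h) := by
    have := ((hs t).add (hs (-t))).div_const 2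
    refine this.congr fun h => ?_
    rw [Real.cosh_eq, neg_mul]
    ring
  rw [e, mg_zero, ← tsum_mul_left, ← s0.tsum_add s2]
  refine (s0.add s2).tsum_le_tsum (fun h => ?_) s3
  have h4 := mul_le_mul_of_nonneg_left (cosh_low (t * l h)) (hw h)
  nlinarith [h4]

/-- **`exp (Var / 2) ≤ E exp`.** -/
theorem exp_half_le (hw : ∀ h, 0 ≤ w h)
    (hs : ∀ t : ℝ, Summable fun h => w h * Real.exp (t * l h))
    (hev : ∀ t, mg w l (-t) = mg w l t) (hZ : 0 < mg w l 0)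
    (four : ∀ t, mg w l t ^ 4 ≤ mg w l 0 ^ 3 * mg w l (2 * t)) (t : ℝ) :
    Real.exp (t ^ 2 / 2 * ((∑' h, w h * l h ^ 2) / mg w l 0)) ≤ mg w l t / mg w l 0 := by
  set v := t ^ 2 * ((∑' h, w h * l h ^ 2) / mg w l 0) with hv
  have hv0 : 0 ≤ v := mul_nonneg (sq_nonneg _)
    (div_nonneg (tsum_nonneg fun h => mul_nonneg (hw h) (sq_nonneg _)) hZ.le)
  have low : ∀ n : ℕ, (1 + v / 2 / (4 : ℝ) ^ n) ^ (4 ^ n) ≤ mg w l t / mg w l 0 := by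
    intro n
    set c : ℝ := ((2 : ℝ) ^ n)⁻¹ with hc'
    have h1 := iter hw hZ four n (c * t)
    have e1 : (2 : ℝ) ^ n * (c * t) = t := by
      rw [hc', ← mul_assoc, mul_inv_cancel₀ (by positivity), one_mul]
    rw [e1] at h1
    refine le_trans ?_ h1
    refine pow_le_pow_left₀ (by positivity) ?_ _
    have h3 := second_low hw hs hev (c * t)
    have h4 : (1 : ℝ) + v / 2 / 4 ^ n = (mg w l 0 +
        (c * t) ^ 2 / 2 * ∑' h, w h * l h ^ 2) / mg w l 0 := by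
      have : c ^ 2 = 1 / (4 : ℝ) ^ n := by
        rw [hc', inv_pow, ← pow_mul, mul_comm n 2, pow_mul]
        norm_num
      rw [mul_pow, this, hv]
      field_simp
    rw [h4]
    exact div_le_div_of_nonneg_right h3 hZ.le
  have lim : Tendsto (fun n : ℕ => (1 + v / 2 / (4 : ℝ) ^ n) ^ (4 ^ n)) atTop
      (𝓝 (Real.exp (v / 2))) := by
    have h1 := Real.tendsto_one_add_div_pow_exp (v / 2)
    have h2 : Tendsto (fun n : ℕ => (4 : ℕ) ^ n) atTop atTop :=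
      tendsto_pow_atTop_atTop_of_one_lt (by norm_num)
    have h3 := h1.comp h2
    refine h3.congr fun n => ?_
    simp [Function.comp]
  have := le_of_tendsto' lim low
  rw [hv] at this
  rwa [show t ^ 2 / 2 * ((∑' h, w h * l h ^ 2) / mg w l 0) =
    t ^ 2 * ((∑' h, w h * l h ^ 2) / mg w l 0) / 2 by ring]

/-- `t² Var / 2 ≤ log E e^{t l}` -/
theorem half_le_log (hw : ∀ h, 0 ≤ w h)
    (hs : ∀ t : ℝ, Summable fun h => w h * Real.exp (t * l h))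
    (hev : ∀ t, mg w l (-t) = mg w l t) (hZ : 0 < mg w l 0)
    (four : ∀ t, mg w l t ^ 4 ≤ mg w l 0 ^ 3 * mg w l (2 * t)) (t : ℝ) :
    t ^ 2 / 2 * ((∑' h, w h * l h ^ 2) / mg w l 0) ≤ Real.log (mg w l t / mg w l 0) := by
  rw [Real.le_log_iff_exp_le (div_pos (mg_pos hw hs hZ t) hZ)]
  exact exp_half_le hw hs hev hZ four t

end core

section mass

variable {H V : Type*} [Fintype V]

/-- the partition function with a mass form `Θ` and a real background `f` -/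
noncomputable def Zf (w : H → ℝ) (ι : H → V → ℝ) (Θ : Matrix V V ℝ) (f : V → ℝ) : ℝ :=
  ∑' h, w h * Real.exp (-(1 / 2) * ((ι h - f) ⬝ᵥ Θ.mulVec (ι h - f)))

/-- the weight with the mass form at background `0` -/
noncomputable def wm (w : H → ℝ) (ι : H → V → ℝ) (Θ : Matrix V V ℝ) (h : H) : ℝ :=
  w h * Real.exp (-(1 / 2) * (ι h ⬝ᵥ Θ.mulVec (ι h)))

/-- `U(f) = - log (Z(f) / Z(0))` -/
noncomputable def Uf (w : H → ℝ) (ι : H → V → ℝ) (Θ : Matrix V V ℝ) (f : V → ℝ) : ℝ :=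
  -Real.log (Zf w ι Θ f / Zf w ι Θ 0)

variable {w : H → ℝ} {ι : H → V → ℝ} {Θ : Matrix V V ℝ}

lemma wm_nonneg (hw : ∀ h, 0 ≤ w h) (h : H) : 0 ≤ wm w ι Θ h :=
  mul_nonneg (hw h) (Real.exp_nonneg _)

lemma Zf_zero : Zf w ι Θ 0 = ∑' h, wm w ι Θ h := by
  unfold Zf wm
  simp

/-- a background is a tilt -/
lemma Zf_eq (hΘ : Θ.IsSymm) (f : V → ℝ) (t : ℝ) :
    Zf w ι Θ (t • f) = Real.exp (-(t ^ 2 / 2) * (f ⬝ᵥ Θ.mulVec f)) *
      mg (wm w ι Θ) (fun h => Θ.mulVec f ⬝ᵥ ι h) t := by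
  unfold Zf mg wm
  rw [← tsum_mul_left]
  refine tsum_congr fun h => ?_
  have e1 : (ι h - t • f) ⬝ᵥ Θ.mulVec (ι h - t • f) =
      ι h ⬝ᵥ Θ.mulVec (ι h) - 2 * t * (Θ.mulVec f ⬝ᵥ ι h) + t ^ 2 * (f ⬝ᵥ Θ.mulVec f) := by
    have e2 : f ⬝ᵥ Θ.mulVec (ι h) = Θ.mulVec f ⬝ᵥ ι h := by
      rw [Matrix.dotProduct_mulVec, ← Matrix.mulVec_transpose, hΘ.eq]
    have e3 : ι h ⬝ᵥ Θ.mulVec f = Θ.mulVec f ⬝ᵥ ι h := dotProduct_comm _ _
    rw [Matrix.mulVec_sub, Matrix.mulVec_smul, sub_dotProduct, dotProduct_sub, dotProduct_sub,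
      smul_dotProduct, smul_dotProduct, dotProduct_smul, dotProduct_smul, e2, e3]
    simp only [smul_eq_mul]
    ring
  rw [e1]
  set A : ℝ := ι h ⬝ᵥ Θ.mulVec (ι h)
  set B : ℝ := Θ.mulVec f ⬝ᵥ ι h
  set C : ℝ := f ⬝ᵥ Θ.mulVec f
  rw [show -(1 / 2) * (A - 2 * t * B + t ^ 2 * C) = -(t ^ 2 / 2) * C + (-(1 / 2) * A + t * B) by
    ring, Real.exp_add, Real.exp_add]
  ring

lemma Zf_mg (f : V → ℝ) : Zf w ι Θ 0 = mg (wm w ι Θ) (fun h => Θ.mulVec f ⬝ᵥ ι h) 0 := by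
  rw [Zf_zero, mg_zero]

lemma four_mg (hΘ : Θ.IsSymm) (f : V → ℝ)
    (four : ∀ t : ℝ, Zf w ι Θ (t • f) ^ 4 ≤ Zf w ι Θ 0 ^ 3 * Zf w ι Θ ((2 * t) • f)) (t : ℝ) :
    mg (wm w ι Θ) (fun h => Θ.mulVec f ⬝ᵥ ι h) t ^ 4 ≤
      mg (wm w ι Θ) (fun h => Θ.mulVec f ⬝ᵥ ι h) 0 ^ 3 *
        mg (wm w ι Θ) (fun h => Θ.mulVec f ⬝ᵥ ι h) (2 * t) := by
  have h1 := four t
  rw [Zf_eq hΘ, Zf_eq hΘ, Zf_mg f] at h1
  have e : Real.exp (-(t ^ 2 / 2) * (f ⬝ᵥ Θ.mulVec f)) ^ 4 =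
      Real.exp (-((2 * t) ^ 2 / 2) * (f ⬝ᵥ Θ.mulVec f)) := by
    rw [← Real.exp_nat_mul]
    congr 1
    push_cast
    ring
  rw [mul_pow, e] at h1
  refine le_of_mul_le_mul_left ?_ (Real.exp_pos (-((2 * t) ^ 2 / 2) * (f ⬝ᵥ Θ.mulVec f)))
  refine h1.trans (le_of_eq ?_)
  ring

lemma Uf_eq (hΘ : Θ.IsSymm) (hw : ∀ h, 0 ≤ w h) (f : V → ℝ)
    (hs : ∀ t : ℝ, Summable fun h => wm w ι Θ h * Real.exp (t * (Θ.mulVec f ⬝ᵥ ι h)))
    (hZ : 0 < Zf w ι Θ 0) (t : ℝ) :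
    Uf w ι Θ (t • f) = t ^ 2 / 2 * (f ⬝ᵥ Θ.mulVec f) -
      Real.log (mg (wm w ι Θ) (fun h => Θ.mulVec f ⬝ᵥ ι h) t /
        mg (wm w ι Θ) (fun h => Θ.mulVec f ⬝ᵥ ι h) 0) := by
  have hZ' := hZ
  rw [Zf_mg f] at hZ'
  have h1 := mg_pos (wm_nonneg hw) hs hZ' t
  unfold Uf
  rw [Zf_eq hΘ, Zf_mg f, mul_div_assoc, Real.log_mul (Real.exp_pos _).ne'
    (div_pos h1 hZ').ne', Real.log_exp]
  ring

/-- **`U(2^n f) ≤ 4^n U(f)`, from the four-copy inequality.** -/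
theorem U_iter (hΘ : Θ.IsSymm) (hw : ∀ h, 0 ≤ w h) (f : V → ℝ)
    (hs : ∀ t : ℝ, Summable fun h => wm w ι Θ h * Real.exp (t * (Θ.mulVec f ⬝ᵥ ι h)))
    (hZ : 0 < Zf w ι Θ 0)
    (four : ∀ t : ℝ, Zf w ι Θ (t • f) ^ 4 ≤ Zf w ι Θ 0 ^ 3 * Zf w ι Θ ((2 * t) • f)) (n : ℕ) :
    Uf w ι Θ ((2 : ℝ) ^ n • f) ≤ 4 ^ n * Uf w ι Θ f := by
  have hZ' := hZ
  rw [Zf_mg f] at hZ'
  have h1 := log_iter (wm_nonneg hw) hs hZ' (four_mg hΘ f four) n 1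
  rw [mul_one] at h1
  have h2 := Uf_eq hΘ hw f hs hZ 1
  rw [one_smul] at h2
  rw [h2, Uf_eq hΘ hw f hs hZ]
  have e : ((2 : ℝ) ^ n) ^ 2 = 4 ^ n := by
    rw [← pow_mul, mul_comm, pow_mul]
    norm_num
  rw [e]
  linarith

/-- **`U(f) ≤ ⟨f, U''(0) f⟩ / 2`**, `⟨f, U''(0) f⟩ = ⟨f, Θ f⟩ - Var_0 ⟨Θ f, h⟩`. -/
theorem U_le (hΘ : Θ.IsSymm) (hw : ∀ h, 0 ≤ w h) (f : V → ℝ)
    (hs : ∀ t : ℝ, Summable fun h => wm w ι Θ h * Real.exp (t * (Θ.mulVec f ⬝ᵥ ι h)))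
    (hev : ∀ t, ∑' h, wm w ι Θ h * Real.exp (-t * (Θ.mulVec f ⬝ᵥ ι h)) =
      ∑' h, wm w ι Θ h * Real.exp (t * (Θ.mulVec f ⬝ᵥ ι h)))
    (hZ : 0 < Zf w ι Θ 0)
    (four : ∀ t : ℝ, Zf w ι Θ (t • f) ^ 4 ≤ Zf w ι Θ 0 ^ 3 * Zf w ι Θ ((2 * t) • f)) :
    Uf w ι Θ f ≤ 1 / 2 * (f ⬝ᵥ Θ.mulVec f -
      (∑' h, wm w ι Θ h * (Θ.mulVec f ⬝ᵥ ι h) ^ 2) / ∑' h, wm w ι Θ h) := by
  have hZ' := hZ
  rw [Zf_mg f] at hZ'
  have h1 := half_le_log (wm_nonneg hw) hs hev hZ' (four_mg hΘ f four) 1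
  have h2 := Uf_eq hΘ hw f hs hZ 1
  rw [one_smul] at h2
  rw [h2, ← mg_zero (w := wm w ι Θ) (l := fun h => Θ.mulVec f ⬝ᵥ ι h)]
  linarith

end mass

end Vale.Agent.P159.TM.H551
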