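import Vale.Agent.P159.TM.H574.Cmp
import Vale.Agent.P159.TM.H928.Idwi

/-!
P159, T1, row I574: `CRUDE b` of `TM/H574/Stmt.lean` (second moments of child minus parent).
-/

open MeasureTheory
open scoped BigOperators

namespace Vale.Agent.P159.TM.H551

open Vale.Agent.P159.T1 Vale.Agent.P159.T1.H934 Vale.Agent.P159.T1.H910
open Vale.Agent.P159.R2.H254 (Fa Eb blf brt bcur Hgt hWt hWt_eq)
open Vale.Agent.P159.TM.SpecI Vale.Agent.P159.TM.H574
open Vale.Agent.P159.TM.H928 (neut_mom4 conn_hgt grid_hgt fp fp_eq em em_fp xt xt_em vp pr_coord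
  sum_coord ex_eb mw prob_mw)

/-- second moment of a neutral functional on a free square pinned at its corner -/
theorem free_sq {b : ℝ} (hb : 0 ≤ b) {n : ℕ} [NeZero n] {N : ℕ} {p : ℕ × ℕ} (hN : 1 ≤ N)
    (h1 : p.1 + (N + 1) ≤ n) (h2 : p.2 + (N + 1) ≤ n) {g : V n → ℝ} (hs : ∑ x, g x = 0)
    (hg : ∀ x, x ∉ bx p (N + 1) → g x = 0) (hg1 : ∀ x, |g x| ≤ 1 / ((N + 1 : ℕ) : ℝ) ^ 2) :
    ex b (eb p (N + 1)) ((bx p (N + 1))ᶜ ∪ {cnr p}) (fun _ => 0) (fun h => pr g h ^ 2) ≤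
      1 + 76800 * Real.exp b := by
  classical
  have i1 := prob_mw hb N
  have hem : ∀ i j, i < N + 1 → j < N + 1 →
      vp n (p.1 + i) (p.2 + j) = em n N p (fp N i j) := by
    intro i j hi hj
    rw [em_fp hi hj]
  have hprx : ∀ h : Fa N → ℤ, pr g (xt n p h) =
      ∑ i ∈ Finset.range (N + 1), ∑ j ∈ Finset.range (N + 1),
        g (vp n (p.1 + i) (p.2 + j)) * (h (fp N i j) : ℝ) := by
    intro h
    rw [pr_coord h1 h2 hg]
    refine Finset.sum_congr rfl fun i hi => Finset.sum_congr rfl fun j hj => ?_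
    rw [Finset.mem_range] at hi hj
    congr 1
    rw [hem i j hi hj, xt_em h1 h2]
  have hsum0 : ∑ i ∈ Finset.range (N + 1), ∑ j ∈ Finset.range (N + 1),
      g (vp n (p.1 + i) (p.2 + j)) = 0 := by
    rw [← sum_coord h1 h2 hg, hs]
  have hM := neut_mom4 (conn_hgt N) (fun _ => hb) (fun _ => le_rfl) hb
    (Set.singleton_nonempty ((0, 0) : Fa N)) (by omega : 2 ≤ N + 1) (grid_hgt N)
    (fun i j => g (vp n (p.1 + i) (p.2 + j))) hsum0 (fun i j _ _ => hg1 _)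
  rw [ex_eb hb h1 h2]
  simp only [hprx]
  have i2 := hM.1 2
  have i4 := hM.1 4
  calc _ ≤ ∫ h : Fa N → ℤ, (1 + (∑ i ∈ Finset.range (N + 1), ∑ j ∈ Finset.range (N + 1),
        g (vp n (p.1 + i) (p.2 + j)) * (h (fp N i j) : ℝ)) ^ 4) ∂(mw N b) := by
        refine integral_mono i2 ((integrable_const 1).add i4) fun h => ?_
        set X := ∑ i ∈ Finset.range (N + 1), ∑ j ∈ Finset.range (N + 1),
          g (vp n (p.1 + i) (p.2 + j)) * (h (fp N i j) : ℝ)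
        show X ^ 2 ≤ 1 + X ^ 4
        nlinarith [sq_nonneg (X ^ 2 - 1), sq_nonneg X]
    _ = 1 + ∫ h : Fa N → ℤ, (∑ i ∈ Finset.range (N + 1), ∑ j ∈ Finset.range (N + 1),
        g (vp n (p.1 + i) (p.2 + j)) * (h (fp N i j) : ℝ)) ^ 4 ∂(mw N b) := by
        rw [integral_add (integrable_const 1) i4]
        simp
    _ ≤ _ := by linarith [hM.2]

/-- **CRUDE** -/
theorem crude {b : ℝ} (hb : 0 ≤ b) : CRUDE b := by
  intro κ hκ
  refine ⟨9 * (1 + 76800 * Real.exp b), by positivity, fun k j hj c hc1 hc2 => ?_⟩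
  set q := 2 ^ (k - (j + 1)) with hq
  have hq1 : 1 ≤ q := Nat.one_le_two_pow
  have hk : 2 ^ k = 2 ^ (j + 1) * q := by
    rw [hq, ← pow_add]
    congr 1
    omega
  have a1 : c.1 / 2 * 2 ≤ c.1 := Nat.div_mul_le_self _ _
  have a2 : c.2 / 2 * 2 ≤ c.2 := Nat.div_mul_le_self _ _
  have hp1 : c.1 / 2 + 1 ≤ 2 ^ j := by
    rw [pow_succ] at hc1
    omega
  have hp2 : c.2 / 2 + 1 ≤ 2 ^ j := by
    rw [pow_succ] at hc2
    omega
  have hk2 : 2 ^ k = 2 ^ j * (2 * q) := by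
    rw [hk, pow_succ]
    ring
  have b1 : (c.1 / 2 + 1) * (2 * q) ≤ 2 ^ k := by
    rw [hk2]
    exact Nat.mul_le_mul_right _ hp1
  have b2 : (c.2 / 2 + 1) * (2 * q) ≤ 2 ^ k := by
    rw [hk2]
    exact Nat.mul_le_mul_right _ hp2
  set p : ℕ × ℕ := (c.1 / 2 * (2 * q), c.2 / 2 * (2 * q)) with hp
  have b1' : p.1 + 2 * q ≤ 2 ^ k := by
    rw [hp]
    calc c.1 / 2 * (2 * q) + 2 * q = (c.1 / 2 + 1) * (2 * q) := by ring
      _ ≤ _ := b1
  have b2' : p.2 + 2 * q ≤ 2 ^ k := by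
    rw [hp]
    calc c.2 / 2 * (2 * q) + 2 * q = (c.2 / 2 + 1) * (2 * q) := by ring
      _ ≤ _ := b2
  have hf := fun x : V (2 ^ k) => dc_facts (n := 2 ^ k) hq1 b1 b2 x
  obtain ⟨N, hN⟩ : ∃ N, 2 * q = N + 1 := ⟨2 * q - 1, by omega⟩
  set g : V (2 ^ k) → ℝ := fun x => dc q c x / 3 with hg
  have hgs : ∑ x, g x = 0 := by
    simp only [hg]
    rw [← Finset.sum_div, sum_dc hq1, zero_div]
  have hg0 : ∀ x, x ∉ bx p (2 * q) → g x = 0 := fun x hx => by
    simp only [hg]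
    rw [(hf x).2 hx, zero_div]
  have hg1 : ∀ x, |g x| ≤ 1 / ((2 * q : ℕ) : ℝ) ^ 2 := fun x => by
    simp only [hg]
    rw [abs_div, abs_of_pos (by norm_num : (0 : ℝ) < 3), div_le_iff₀ (by norm_num)]
    refine (hf x).1.trans (le_of_eq ?_)
    ring
  have e1 : ∀ h : V (2 ^ k) → ℤ, Dc q c h ^ 2 = 9 * pr g h ^ 2 := by
    intro h
    rw [Dc_lin]
    have : pr g h = H22.lin (dc q c) h / 3 := by
      unfold pr H22.lin
      rw [Finset.sum_div]
      exact Finset.sum_congr rfl fun x _ => by simp only [hg]; ring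
    rw [this]
    ring
  have e2 : exA b κ k j (fun h => Dc q c h ^ 2) = 9 * exA b κ k j (fun h => pr g h ^ 2) := by
    simp only [e1]
    unfold exA ex
    rw [← mul_div_assoc, ← tsum_mul_left]
    congr 1
    exact tsum_congr fun h => by ring
  rw [e2]
  have u1 := upper_A hb hκ (k := k) (j := j) (by omega) b1' b2' (by omega) hgs hg0
  refine mul_le_mul_of_nonneg_left (u1.trans ?_) (by norm_num)
  rw [hN] at b1' b2' hg0 hg1 ⊢
  exact free_sq hb (by omega) b1' b2' hgs hg0 hg1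

end Vale.Agent.P159.TM.H551
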