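import Mathlib

/-!
P159, T1, row I574: sums over the global shift of the heights.
-/

open Filter Topology

namespace Vale.Agent.P159.TM.H551

lemma summable_exp_abs : Summable fun k : ℤ => Real.exp (-|(k : ℝ)|) := by
  have h2 : Summable fun n : ℕ => Real.exp (-1) ^ n :=
    summable_geometric_of_lt_one (Real.exp_pos _).le (by rw [Real.exp_lt_one_iff]; norm_num)
  have h3 : Summable fun n : ℕ => Real.exp (-|(n : ℝ)|) := by
    refine h2.congr fun n => ?_
    rw [← Real.exp_nat_mul, abs_of_nonneg (Nat.cast_nonneg n)]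
    congr 1
    ring
  refine Summable.of_nat_of_neg ?_ ?_
  · simpa using h3
  · simpa using h3

/-- the constant `e ∑ e^{-|m|}` -/
noncomputable def Kz : ℝ := Real.exp 1 * ∑' m : ℤ, Real.exp (-|(m : ℝ)|)

lemma exp_shift_le {x : ℝ} (h0 : 0 ≤ x) (h1 : x < 1) (m : ℤ) :
    Real.exp (-|x + m|) ≤ Real.exp 1 * Real.exp (-|(m : ℝ)|) := by
  rw [← Real.exp_add]
  refine Real.exp_le_exp.2 ?_
  have h2 : |(m : ℝ)| ≤ |x + m| + |x| := by
    have := abs_sub (x + (m : ℝ)) x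
    rw [add_sub_cancel_left] at this
    exact this
  rw [abs_of_nonneg h0] at h2
  linarith

lemma shift_fract (x : ℝ) (F : ℝ → ℝ) :
    (fun m : ℤ => F (x + m)) = (fun m : ℤ => F (Int.fract x + m)) ∘ (Equiv.addLeft ⌊x⌋) := by
  funext m
  simp only [Function.comp, Equiv.coe_addLeft]
  congr 1
  push_cast
  linarith [Int.floor_add_fract x]

lemma summable_shift (x : ℝ) : Summable fun m : ℤ => Real.exp (-|x + m|) := by
  rw [shift_fract x fun y => Real.exp (-|y|), (Equiv.addLeft ⌊x⌋).summable_iff]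
  exact Summable.of_nonneg_of_le (fun _ => (Real.exp_pos _).le)
    (exp_shift_le (Int.fract_nonneg x) (Int.fract_lt_one x)) (summable_exp_abs.mul_left _)

lemma tsum_shift_le (x : ℝ) : ∑' m : ℤ, Real.exp (-|x + m|) ≤ Kz := by
  rw [shift_fract x fun y => Real.exp (-|y|)]
  have e := (Equiv.addLeft ⌊x⌋).tsum_eq (fun m : ℤ => Real.exp (-|Int.fract x + m|))
  refine le_of_eq_of_le e ?_
  unfold Kz
  rw [← tsum_mul_left]
  exact Summable.tsum_le_tsum (exp_shift_le (Int.fract_nonneg x) (Int.fract_lt_one x))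
    (Summable.of_nonneg_of_le (fun _ => (Real.exp_pos _).le)
      (exp_shift_le (Int.fract_nonneg x) (Int.fract_lt_one x)) (summable_exp_abs.mul_left _))
    (summable_exp_abs.mul_left _)

/-- Gaussian weight of the shift -/
noncomputable def gz (κ x : ℝ) (m : ℤ) : ℝ := Real.exp (-(κ ^ 2 * (x + m) ^ 2) / 2)

lemma gz_pos (κ x : ℝ) (m : ℤ) : 0 < gz κ x m := Real.exp_pos _

lemma gz_cosh_le {κ : ℝ} (hκ : 0 < κ) {σ : ℝ} (hσ : |σ| ≤ 1) (x : ℝ) (m : ℤ) :
    gz κ x m * Real.cosh (2 * σ * (x + m)) ≤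
      Real.exp (9 / (2 * κ ^ 2)) * Real.exp (-|x + m|) := by
  have h1 : Real.cosh (2 * σ * (x + m)) ≤ Real.exp (2 * |x + m|) := by
    refine (Real.cosh_le_cosh.2 ?_).trans (?_ : Real.cosh (2 * |x + m|) ≤ _)
    · rw [abs_mul, abs_mul, abs_mul, abs_abs, abs_of_pos (by norm_num : (0 : ℝ) < 2)]
      have := mul_le_mul_of_nonneg_right hσ (abs_nonneg (x + (m : ℝ)))
      nlinarith
    · rw [Real.cosh_eq]
      have : Real.exp (-(2 * |x + m|)) ≤ Real.exp (2 * |x + m|) :=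
        Real.exp_le_exp.2 (by linarith [abs_nonneg (x + (m : ℝ))])
      linarith
  calc gz κ x m * Real.cosh (2 * σ * (x + m)) ≤ gz κ x m * Real.exp (2 * |x + m|) :=
        mul_le_mul_of_nonneg_left h1 (gz_pos κ x m).le
    _ ≤ _ := by
      unfold gz
      rw [← Real.exp_add, ← Real.exp_add]
      refine Real.exp_le_exp.2 ?_
      set u := |x + (m : ℝ)| with hu
      have hu2 : (x + (m : ℝ)) ^ 2 = u ^ 2 := (sq_abs _).symm
      rw [hu2]
      have h3 : 0 ≤ (κ * u - 3 / κ) ^ 2 := sq_nonneg _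
      have h4 : (κ * u - 3 / κ) ^ 2 = κ ^ 2 * u ^ 2 - 6 * u + 9 / κ ^ 2 := by
        field_simp
        ring
      rw [h4] at h3
      have h5 : 9 / (2 * κ ^ 2) = 9 / κ ^ 2 / 2 := by
        rw [div_div]
        ring
      rw [h5]
      linarith

lemma gz_cosh_summable {κ : ℝ} (hκ : 0 < κ) {σ : ℝ} (hσ : |σ| ≤ 1) (x : ℝ) :
    Summable fun m : ℤ => gz κ x m * Real.cosh (2 * σ * (x + m)) :=
  Summable.of_nonneg_of_le (fun m => mul_nonneg (gz_pos κ x m).le (Real.cosh_pos _).le)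
    (gz_cosh_le hκ hσ x) ((summable_shift x).mul_left _)

/-- the constant of the shift sums -/
noncomputable def Cz (κ : ℝ) : ℝ := Real.exp (9 / (2 * κ ^ 2)) * Kz

lemma gz_cosh_tsum {κ : ℝ} (hκ : 0 < κ) {σ : ℝ} (hσ : |σ| ≤ 1) (x : ℝ) :
    ∑' m : ℤ, gz κ x m * Real.cosh (2 * σ * (x + m)) ≤ Cz κ := by
  refine ((gz_cosh_summable hκ hσ x).tsum_le_tsum (gz_cosh_le hκ hσ x)
    ((summable_shift x).mul_left _)).trans ?_
  rw [tsum_mul_left]
  exact mul_le_mul_of_nonneg_left (tsum_shift_le x) (Real.exp_pos _).le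

lemma gz_summable {κ : ℝ} (hκ : 0 < κ) (x : ℝ) : Summable fun m : ℤ => gz κ x m := by
  have := gz_cosh_summable hκ (σ := 0) (by simp) x
  simpa using this

lemma gz_tsum_le {κ : ℝ} (hκ : 0 < κ) (x : ℝ) : ∑' m : ℤ, gz κ x m ≤ Cz κ := by
  have := gz_cosh_tsum hκ (σ := 0) (by simp) x
  simpa using this

lemma gz_tsum_ge {κ : ℝ} (hκ : 0 < κ) (x : ℝ) : Real.exp (-κ ^ 2) ≤ ∑' m : ℤ, gz κ x m := by
  have h1 := (gz_summable hκ x).le_tsum (-⌊x⌋) fun m _ => (gz_pos κ x m).le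
  refine le_trans ?_ h1
  unfold gz
  refine Real.exp_le_exp.2 ?_
  push_cast
  have e : x + -(⌊x⌋ : ℝ) = Int.fract x := by rw [← sub_eq_add_neg]; rfl
  rw [e]
  have h2 := Int.fract_nonneg x
  have h3 := (Int.fract_lt_one x).le
  have h4 : Int.fract x ^ 2 ≤ 1 := by nlinarith
  nlinarith [sq_nonneg κ, sq_nonneg (Int.fract x)]

lemma Kz_nonneg : 0 ≤ Kz :=
  mul_nonneg (Real.exp_pos _).le (tsum_nonneg fun _ => (Real.exp_pos _).le)

lemma Cz_nonneg (κ : ℝ) : 0 ≤ Cz κ := mul_nonneg (Real.exp_pos _).le Kz_nonneg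

lemma cosh_add_le (x y : ℝ) : Real.cosh (x + y) ≤ Real.cosh (2 * x) + Real.cosh (2 * y) := by
  rw [Real.cosh_add, Real.cosh_two_mul, Real.cosh_two_mul]
  nlinarith [sq_nonneg (Real.cosh x - Real.cosh y), sq_nonneg (Real.sinh x - Real.sinh y)]

/-- `x⁴ ≤ 48 cosh x` -/
lemma pow4_le_cosh (x : ℝ) : x ^ 4 ≤ 48 * Real.cosh x := by
  have h1 := Real.pow_div_factorial_le_exp |x| (abs_nonneg x) 4
  have h3 : |x| ^ 4 = x ^ 4 := by
    rw [show (4 : ℕ) = 2 * 2 by norm_num, pow_mul, pow_mul, sq_abs]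
  rw [h3, div_le_iff₀ (by positivity)] at h1
  have h4 : Real.exp |x| ≤ 2 * Real.cosh x := by
    rw [← Real.cosh_abs, Real.cosh_eq]
    linarith [Real.exp_pos (-|x|)]
  have h5 : ((Nat.factorial 4 : ℕ) : ℝ) = 24 := by norm_num [Nat.factorial]
  rw [h5] at h1
  linarith

end Vale.Agent.P159.TM.H551
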