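import Vale.Agent.P159.TM.H574.Cmp
import Vale.Agent.P159.TM.H928.Idwi
import Vale.Agent.P159.TM.H551.OneD

/-!
P159, T1, row I574: `MOM4 b` of `TM/H574/Stmt.lean` (fourth moments along the mass path).
-/

open MeasureTheory
open scoped BigOperators

namespace Vale.Agent.P159.TM.H551

open Vale.Agent.P159.T1 Vale.Agent.P159.T1.H934 Vale.Agent.P159.T1.H910
open Vale.Agent.P159.H353 (wI wI_zero_pos wI_neg wI_nonneg)
open Vale.Agent.P159.TM.SpecI Vale.Agent.P159.TM.H574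
open Vale.Agent.P159.TM.H22 (lin SG Gr)
open Vale.Agent.P159.TM.H928 (vp pr_coord sum_coord ex_inn mv prob_mv conn_V grid_V flow_neutral
  cosh_bare integrable_cosh lf lf_smul ss tt)

section inc

variable {U : Type} [Fintype U]

lemma inc_cosh (r : U → ℝ) : Inc fun h : U → ℤ => Real.cosh (lin r h) := by
  refine ⟨Gr.cosh r, fun u => √2 * Real.sinh (lin (fun x => 1 / 2 * r x) u),
    (Gr.sinh _).const_mul _, fun h k => ?_⟩
  simp only
  rw [lin_hsmul, lin_hsmul, H22.lin_add, H22.lin_sub]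
  set a := lin r h
  set c := lin r k
  have e1 : a = (a + c) / 2 + (a - c) / 2 := by ring
  have e2 : c = (a + c) / 2 - (a - c) / 2 := by ring
  have h2 : √2 * √2 = 2 := Real.mul_self_sqrt (by norm_num)
  calc Real.cosh a - Real.cosh c =
        Real.cosh ((a + c) / 2 + (a - c) / 2) - Real.cosh ((a + c) / 2 - (a - c) / 2) := by
        rw [← e1, ← e2]
    _ = 2 * (Real.sinh ((a + c) / 2) * Real.sinh ((a - c) / 2)) := by
        rw [Real.cosh_add, Real.cosh_sub]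
        ring
    _ = √2 * √2 * (Real.sinh ((a + c) / 2) * Real.sinh ((a - c) / 2)) := by rw [h2]
    _ = _ := by ring

end inc

section dec

variable {n : ℕ} [NeZero n]

/-- heights = pinned heights + global shift -/
def spl (n : ℕ) [NeZero n] : (V n → ℤ) ≃ {g : V n → ℤ // g (cnr (0, 0)) = 0} × ℤ where
  toFun h := (⟨fun x => h x - h (cnr (0, 0)), sub_self _⟩, h (cnr (0, 0)))
  invFun y x := y.1.1 x + y.2
  left_inv h := by funext x; simp
  right_inv y := by
    obtain ⟨⟨g, hg⟩, m⟩ := y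
    refine Prod.ext (Subtype.ext ?_) ?_
    · funext x
      simp [hg]
    · simp [hg]

lemma spl_symm (y : {g : V n → ℤ // g (cnr (0, 0)) = 0} × ℤ) :
    (spl n).symm y = fun x => y.1.1 x + y.2 := rfl

/-- weight of the gradients -/
noncomputable def w0 (b : ℝ) (g : V n → ℤ) : ℝ := ∏ e ∈ inn n, wI b (g (tgt e) - g e.1)

lemma w0_nonneg {b : ℝ} (hb : 0 ≤ b) (g : V n → ℤ) : 0 ≤ w0 b g :=
  Finset.prod_nonneg fun _ _ => wI_nonneg hb _

lemma w0_add (b : ℝ) (g : V n → ℤ) (m : ℤ) : w0 b (fun x => g x + m) = w0 b g := by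
  unfold w0
  refine Finset.prod_congr rfl fun e _ => ?_
  congr 1
  ring

lemma wt_free (b : ℝ) (Q : (V n → ℤ) → ℝ) (h : V n → ℤ) :
    wt b (inn n) ∅ Q h = w0 b h * Real.exp (-(Q h) / 2) := by
  classical
  unfold wt w0
  simp

lemma wt_pin (b : ℝ) (h : V n → ℤ) : wt b (inn n) {cnr (0, 0)} (fun _ => 0) h =
    if h (cnr (0, 0)) = 0 then w0 b h else 0 := by
  classical
  unfold wt w0
  simp

lemma sg_pin {b : ℝ} (hb : 0 ≤ b) : SG (wt b (inn n) {cnr (0, 0)} fun _ => 0) :=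
  sg_wt hb (fun _ => le_rfl) (fun _ => rfl) (coe_pin (Finset.singleton_nonempty _) _)

/-- sums over the pinned heights -/
lemma sum_pin (b : ℝ) (F : (V n → ℤ) → ℝ) :
    ∑' h, wt b (inn n) {cnr (0, 0)} (fun _ => 0) h * F h =
      ∑' g : {g : V n → ℤ // g (cnr (0, 0)) = 0}, w0 b g.1 * F g.1 := by
  classical
  refine Eq.trans (tsum_congr fun h => ?_)
    (tsum_subtype {h : V n → ℤ | h (cnr (0, 0)) = 0} (fun h => w0 b h * F h)).symm
  rw [wt_pin]
  by_cases h0 : h (cnr (0, 0)) = 0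
  · rw [if_pos h0, Set.indicator_of_mem (by exact h0)]
  · rw [if_neg h0, Set.indicator_of_notMem (by exact h0), zero_mul]

lemma summable_pin {b : ℝ} (hb : 0 ≤ b) {F : (V n → ℤ) → ℝ} (hF : Gr F) :
    Summable fun g : {g : V n → ℤ // g (cnr (0, 0)) = 0} => w0 b g.1 * F g.1 := by
  have h1 := ((sg_pin (n := n) hb).sum hF).comp_injective
    (Subtype.val_injective (p := fun g : V n → ℤ => g (cnr (0, 0)) = 0))
  refine h1.congr fun g => ?_
  simp only [Function.comp]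
  rw [wt_pin, if_pos g.2]

/-- `cosh y - 1 ≤ (y²/2) e^{72}` for `|y| ≤ 12` -/
lemma cosh_sub_le {y : ℝ} (hy : |y| ≤ 12) : Real.cosh y - 1 ≤ y ^ 2 * (Real.exp 72 / 2) := by
  have h1 := Real.cosh_le_exp_half_sq y
  have h2 : Real.exp (y ^ 2 / 2) - 1 ≤ y ^ 2 / 2 * Real.exp (y ^ 2 / 2) := by
    have h3 := Real.add_one_le_exp (-(y ^ 2 / 2))
    have h4 := mul_le_mul_of_nonneg_right h3 (Real.exp_pos (y ^ 2 / 2)).le
    rw [← Real.exp_add, neg_add_cancel, Real.exp_zero] at h4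
    linarith
  have h5 : y ^ 2 ≤ 144 := by
    rw [← sq_abs]
    nlinarith [abs_nonneg y]
  have h6 : Real.exp (y ^ 2 / 2) ≤ Real.exp 72 := Real.exp_le_exp.2 (by linarith)
  have h7 : y ^ 2 / 2 * Real.exp (y ^ 2 / 2) ≤ y ^ 2 / 2 * Real.exp 72 :=
    mul_le_mul_of_nonneg_left h6 (by positivity)
  linarith

/-- exponential moments of neutral functionals of the free box pinned at its corner -/
theorem pin_cosh {b : ℝ} (hb : 0 ≤ b) {ψ : V n → ℝ} (hs : ∑ x, ψ x = 0)
    (h1 : ∀ x, |ψ x| ≤ 1 / (n : ℝ) ^ 2) :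
    ex b (inn n) {cnr (0, 0)} (fun _ => 0) (fun h => Real.cosh (4 * pr ψ h)) ≤
      Real.exp (b * (80 * Real.exp 72)) := by
  have hn : 0 < n := Nat.pos_of_ne_zero (NeZero.ne n)
  have hn1 : (1 : ℝ) ≤ n := by exact_mod_cast hn
  have hg : ∀ x, x ∉ bx (n := n) (0, 0) n → ψ x = 0 := fun x hx => by
    rw [bx_full] at hx
    exact absurd (Finset.mem_univ x) hx
  have c1 : (0 : ℕ × ℕ).1 + n ≤ n := by simp
  have hsum := sum_coord (n := n) (q := (0, 0)) (r := n) (by simp) (by simp) hg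
  rw [hs] at hsum
  obtain ⟨a, a1, a2, a3⟩ := flow_neutral hn (grid_V (n := n)) (fun i j => ψ (vp n (0 + i) (0 + j)))
    hsum.symm (fun i j _ _ => h1 _)
  rw [ex_inn hb]
  have e1 : ∀ h : V n → ℤ, 4 * pr ψ h = lf (ss n) (tt n) (fun e => 4 * a e) h := by
    intro h
    rw [lf_smul, pr_coord (q := (0, 0)) (r := n) (by simp) (by simp) hg]
    congr 1
    unfold lf
    rw [← a1 h]
    simp only [zero_add]
  simp only [e1]
  refine (cosh_bare (conn_V (n := n)) (fun _ => hb) (X := (({cnr (0, 0)} : Finset (V n)) : Set (V n)))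
    (by simp) _).trans (Real.exp_le_exp.2 ?_)
  rw [← Finset.mul_sum]
  refine mul_le_mul_of_nonneg_left ?_ hb
  calc ∑ e, (Real.cosh (4 * a e) - 1) ≤ ∑ e, (4 * a e) ^ 2 * (Real.exp 72 / 2) := by
        refine Finset.sum_le_sum fun e _ => cosh_sub_le ?_
        rw [abs_mul, abs_of_pos (by norm_num : (0 : ℝ) < 4)]
        have h3 := a2 e
        have h4 : (3 : ℝ) / n ≤ 3 := div_le_self (by norm_num) hn1
        linarith
    _ = (16 * ∑ e, a e ^ 2) * (Real.exp 72 / 2) := by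
        rw [← Finset.sum_mul, Finset.mul_sum]
        congr 1
        exact Finset.sum_congr rfl fun e _ => by ring
    _ ≤ (16 * 10) * (Real.exp 72 / 2) :=
        mul_le_mul_of_nonneg_right (by linarith) (by positivity)
    _ = _ := by ring

end dec

section main

variable {k : ℕ}

lemma avg_shift (k : ℕ) (g : V (2 ^ k) → ℤ) (m : ℤ) :
    SpecI.avg (2 ^ k) (0, 0) (fun x => g x + m) = SpecI.avg (2 ^ k) (0, 0) g + m := by
  rw [avg_lin, avg_lin]
  have h1 := sum_avc (n := 2 ^ k) (r := 2 ^ k) Nat.one_le_two_pow (0, 0)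
  unfold lin
  have e : ∀ x : V (2 ^ k), avc (2 ^ k) (0, 0) x * (((g x + m : ℤ)) : ℝ) =
      avc (2 ^ k) (0, 0) x * (g x : ℝ) + avc (2 ^ k) (0, 0) x * m := fun x => by
    push_cast
    ring
  rw [Finset.sum_congr rfl fun x _ => e x, Finset.sum_add_distrib, ← Finset.sum_mul, h1, one_mul]

lemma avc_eq' (x : V (2 ^ k)) : avc (2 ^ k) (0, 0) x = 1 / 4 ^ k := by
  rw [avc_eq (by simp) (by simp), if_pos]
  · push_cast
    rw [← pow_mul, mul_comm, pow_mul]
    norm_num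
  · simp only [zero_mul]
    rw [bx_full]
    exact Finset.mem_univ x

/-- the neutral part -/
noncomputable def neu (φ : V (2 ^ k) → ℝ) (x : V (2 ^ k)) : ℝ := φ x - (∑ y, φ y) * (1 / 4 ^ k)

lemma card_V : (Finset.univ : Finset (V (2 ^ k))).card = 4 ^ k := by
  rw [Finset.card_univ, Fintype.card_prod, ZMod.card, ← mul_pow]
  norm_num

lemma sum_neu (φ : V (2 ^ k) → ℝ) : ∑ x, neu φ x = 0 := by
  unfold neu
  rw [Finset.sum_sub_distrib, Finset.sum_const, card_V, nsmul_eq_mul]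
  push_cast
  have : (4 : ℝ) ^ k ≠ 0 := by positivity
  field_simp
  ring

lemma sum_abs_le {φ : V (2 ^ k) → ℝ} (hφ : ∀ x, |φ x| ≤ 1 / 4 ^ k) : |∑ x, φ x| ≤ 1 := by
  calc |∑ x, φ x| ≤ ∑ x, |φ x| := Finset.abs_sum_le_sum_abs _ _
    _ ≤ ∑ _x : V (2 ^ k), (1 / 4 ^ k : ℝ) := Finset.sum_le_sum fun x _ => hφ x
    _ = 1 := by
      rw [Finset.sum_const, card_V, nsmul_eq_mul]
      push_cast
      have : (4 : ℝ) ^ k ≠ 0 := by positivity
      field_simp

lemma neu_le {φ : V (2 ^ k) → ℝ} (hφ : ∀ x, |φ x| ≤ 1 / 4 ^ k) (x : V (2 ^ k)) :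
    |neu φ x| ≤ 2 * (1 / 4 ^ k) := by
  unfold neu
  have h1 := sum_abs_le hφ
  have h4 : (0 : ℝ) ≤ 1 / 4 ^ k := by positivity
  calc |φ x - (∑ y, φ y) * (1 / 4 ^ k)| ≤ |φ x| + |(∑ y, φ y) * (1 / 4 ^ k)| := abs_sub _ _
    _ ≤ 1 / 4 ^ k + 1 * (1 / 4 ^ k) := by
      rw [abs_mul, abs_of_nonneg h4]
      exact add_le_add (hφ x) (mul_le_mul_of_nonneg_right h1 h4)
    _ = _ := by ring

/-- decomposition of the functional on shifted heights -/
lemma pr_shift (φ : V (2 ^ k) → ℝ) (g : V (2 ^ k) → ℤ) (m : ℤ) :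
    pr φ (fun x => g x + m) =
      pr (neu φ) g + (∑ y, φ y) * (SpecI.avg (2 ^ k) (0, 0) g + m) := by
  rw [avg_lin]
  unfold pr lin neu
  have e1 : ∀ x : V (2 ^ k), φ x * (((g x + m : ℤ)) : ℝ) = φ x * (g x : ℝ) + φ x * m := fun x => by
    push_cast
    ring
  have e2 : ∀ x : V (2 ^ k), (φ x - (∑ y, φ y) * (1 / 4 ^ k)) * (g x : ℝ) =
      φ x * (g x : ℝ) - (∑ y, φ y) * (avc (2 ^ k) (0, 0) x * (g x : ℝ)) := fun x => by
    rw [avc_eq']
    ring
  simp only [e2]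
  rw [Finset.sum_congr rfl fun x _ => e1 x, Finset.sum_add_distrib, ← Finset.sum_mul,
    Finset.sum_sub_distrib, ← Finset.mul_sum]
  ring

/-- the massive weight on shifted heights -/
lemma wt_shift (b κ : ℝ) (g : V (2 ^ k) → ℤ) (m : ℤ) :
    wt b (inn (2 ^ k)) ∅ (massA κ k 0) (fun x => g x + m) =
      w0 b g * gz κ (SpecI.avg (2 ^ k) (0, 0) g) m := by
  rw [wt_free, w0_add, massA_zero, avg_shift]
  rfl

/-- **exponential moments with the mass on the mean only** -/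
theorem mean_cosh {b κ : ℝ} (hb : 0 ≤ b) (hκ : 0 < κ) {φ : V (2 ^ k) → ℝ}
    (hφ : ∀ x, |φ x| ≤ 1 / 4 ^ k) :
    ex b (inn (2 ^ k)) ∅ (massA κ k 0) (fun h => Real.cosh (pr φ h)) ≤
      Cz κ / Real.exp (-κ ^ 2) * (Real.exp (b * (80 * Real.exp 72)) + 1) := by
  have hSG : SG (wt b (inn (2 ^ k)) ∅ (massA κ k 0)) :=
    sg_wt hb (sq_massA κ k 0).nonneg (sq_massA κ k 0).even (coe_massA hκ (Nat.zero_le k))
  set σ := ∑ y, φ y with hσ
  have hσ1 : |σ| ≤ 1 := sum_abs_le hφ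
  set T := {g : V (2 ^ k) → ℤ // g (cnr (0, 0)) = 0}
  set ψ : V (2 ^ k) → ℝ := fun x => neu φ x / 2 with hψ
  have hψs : ∑ x, ψ x = 0 := by
    simp only [hψ]
    rw [← Finset.sum_div, sum_neu, zero_div]
  have h4k : (((2 ^ k : ℕ) : ℝ)) ^ 2 = 4 ^ k := by
    push_cast
    rw [← pow_mul, mul_comm, pow_mul]
    norm_num
  have hψ1 : ∀ x, |ψ x| ≤ 1 / (((2 ^ k : ℕ) : ℝ)) ^ 2 := fun x => by
    simp only [hψ]
    rw [h4k, abs_div, abs_of_pos (by norm_num : (0 : ℝ) < 2), div_le_iff₀ (by norm_num)]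
    have := neu_le hφ x
    linarith
  have hpr : ∀ g : V (2 ^ k) → ℤ, 2 * pr (neu φ) g = 4 * pr ψ g := fun g => by
    unfold pr
    rw [Finset.mul_sum, Finset.mul_sum]
    exact Finset.sum_congr rfl fun x _ => by simp only [hψ]; ring
  -- the denominators
  set B := ∑' g : T, w0 b g.1 with hB
  set A := ∑' g : T, w0 b g.1 * Real.cosh (4 * pr ψ g.1) with hA
  have sB : Summable fun g : T => w0 b g.1 := by
    have := summable_pin (n := 2 ^ k) hb (Gr.const (1 : ℝ))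
    simpa only [mul_one] using this
  have hGr : Gr fun h : V (2 ^ k) → ℤ => Real.cosh (4 * pr ψ h) := by
    have e : (fun h : V (2 ^ k) → ℤ => Real.cosh (4 * pr ψ h)) =
        fun h => Real.cosh (lin (fun x => 4 * ψ x) h) := by
      funext h
      unfold pr lin
      rw [Finset.mul_sum]
      congr 1
      exact Finset.sum_congr rfl fun x _ => by ring
    rw [e]
    exact Gr.cosh _
  have sA : Summable fun g : T => w0 b g.1 * Real.cosh (4 * pr ψ g.1) := summable_pin hb hGr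
  have hB0 : 0 < B := by
    have h0 : w0 b (0 : V (2 ^ k) → ℤ) ≤ B :=
      sB.le_tsum ⟨0, rfl⟩ fun g _ => w0_nonneg hb g.1
    refine lt_of_lt_of_le ?_ h0
    unfold w0
    refine Finset.prod_pos fun e _ => ?_
    simpa using wI_zero_pos hb
  have hAB : A / B ≤ Real.exp (b * (80 * Real.exp 72)) := by
    have h1 := pin_cosh (n := 2 ^ k) hb hψs hψ1
    unfold ex at h1
    rw [sum_pin] at h1
    have h2 : ∑' h : V (2 ^ k) → ℤ, wt b (inn (2 ^ k)) {cnr (0, 0)} (fun _ => 0) h = B := by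
      have := sum_pin (n := 2 ^ k) b fun _ => 1
      simpa only [mul_one] using this
    rw [h2] at h1
    exact h1
  -- numerator
  have hcosh : ∀ g : V (2 ^ k) → ℤ, ∀ m : ℤ, Real.cosh (pr φ fun x => g x + m) ≤
      Real.cosh (4 * pr ψ g) + Real.cosh (2 * σ * (SpecI.avg (2 ^ k) (0, 0) g + m)) := by
    intro g m
    rw [pr_shift, ← hpr, mul_assoc 2 σ]
    exact cosh_add_le _ _
  have sN : Summable fun h => wt b (inn (2 ^ k)) ∅ (massA κ k 0) h * Real.cosh (pr φ h) :=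
    hSG.sum (Gr.cosh φ)
  have sN' := (spl (2 ^ k)).symm.summable_iff.2 sN
  have sD : Summable fun h => wt b (inn (2 ^ k)) ∅ (massA κ k 0) h * 1 := hSG.sum (Gr.const 1)
  have sD' := (spl (2 ^ k)).symm.summable_iff.2 sD
  have eN : ∑' h, wt b (inn (2 ^ k)) ∅ (massA κ k 0) h * Real.cosh (pr φ h) =
      ∑' g : T, ∑' m : ℤ, w0 b g.1 * gz κ (SpecI.avg (2 ^ k) (0, 0) g.1) m *
        Real.cosh (pr φ fun x => g.1 x + m) := by
    rw [← (spl (2 ^ k)).symm.tsum_eq]
    refine (sN'.tsum_prod).trans (tsum_congr fun g => tsum_congr fun m => ?_)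
    simp only [Function.comp]
    rw [spl_symm]
    simp only
    rw [wt_shift]
  have eD : ∑' h, wt b (inn (2 ^ k)) ∅ (massA κ k 0) h * 1 =
      ∑' g : T, ∑' m : ℤ, w0 b g.1 * gz κ (SpecI.avg (2 ^ k) (0, 0) g.1) m := by
    rw [← (spl (2 ^ k)).symm.tsum_eq]
    refine (sD'.tsum_prod).trans (tsum_congr fun g => tsum_congr fun m => ?_)
    simp only [Function.comp]
    rw [spl_symm]
    simp only
    rw [wt_shift, mul_one]
  have pN : ∀ g : T, ∑' m : ℤ, w0 b g.1 * gz κ (SpecI.avg (2 ^ k) (0, 0) g.1) m *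
      Real.cosh (pr φ fun x => g.1 x + m) ≤
        Cz κ * (w0 b g.1 * Real.cosh (4 * pr ψ g.1)) + Cz κ * w0 b g.1 := by
    intro g
    have hw := w0_nonneg hb g.1
    set y := SpecI.avg (2 ^ k) (0, 0) g.1 with hy
    have s1 := (gz_summable hκ y).mul_left (w0 b g.1 * Real.cosh (4 * pr ψ g.1))
    have s2 := (gz_cosh_summable hκ hσ1 y).mul_left (w0 b g.1)
    have hle : ∀ m : ℤ, w0 b g.1 * gz κ y m * Real.cosh (pr φ fun x => g.1 x + m) ≤
        w0 b g.1 * Real.cosh (4 * pr ψ g.1) * gz κ y m +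
          w0 b g.1 * (gz κ y m * Real.cosh (2 * σ * (y + m))) := by
      intro m
      have h1 := mul_le_mul_of_nonneg_left (hcosh g.1 m) (mul_nonneg hw (gz_pos κ y m).le)
      refine h1.trans (le_of_eq ?_)
      ring
    have s0 : Summable fun m : ℤ => w0 b g.1 * gz κ y m * Real.cosh (pr φ fun x => g.1 x + m) :=
      Summable.of_nonneg_of_le (fun m => mul_nonneg (mul_nonneg hw (gz_pos κ y m).le)
        (Real.cosh_pos _).le) hle (s1.add s2)
    have h2 := s0.tsum_le_tsum hle (s1.add s2)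
    rw [s1.tsum_add s2, tsum_mul_left, tsum_mul_left] at h2
    have h3 := mul_le_mul_of_nonneg_left (gz_tsum_le hκ y)
      (mul_nonneg hw (Real.cosh_pos (4 * pr ψ g.1)).le)
    have h4 := mul_le_mul_of_nonneg_left (gz_cosh_tsum hκ hσ1 y) hw
    linarith
  have pD : ∀ g : T, Real.exp (-κ ^ 2) * w0 b g.1 ≤
      ∑' m : ℤ, w0 b g.1 * gz κ (SpecI.avg (2 ^ k) (0, 0) g.1) m := by
    intro g
    rw [tsum_mul_left, mul_comm]
    exact mul_le_mul_of_nonneg_left (gz_tsum_ge hκ _) (w0_nonneg hb g.1)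
  have hN : ∑' h, wt b (inn (2 ^ k)) ∅ (massA κ k 0) h * Real.cosh (pr φ h) ≤
      Cz κ * A + Cz κ * B := by
    rw [eN, hA, hB, ← tsum_mul_left, ← tsum_mul_left, ← (sA.mul_left _).tsum_add (sB.mul_left _)]
    refine Summable.tsum_le_tsum pN ?_ ((sA.mul_left _).add (sB.mul_left _))
    have := sN'.prod
    refine this.congr fun g => tsum_congr fun m => ?_
    simp only [Function.comp]
    rw [spl_symm]
    simp only
    rw [wt_shift]
  have hD : Real.exp (-κ ^ 2) * B ≤ ∑' h, wt b (inn (2 ^ k)) ∅ (massA κ k 0) h * 1 := by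
    rw [eD, hB, ← tsum_mul_left]
    refine Summable.tsum_le_tsum pD (sB.mul_left _) ?_
    have := sD'.prod
    refine this.congr fun g => tsum_congr fun m => ?_
    simp only [Function.comp]
    rw [spl_symm]
    simp only
    rw [wt_shift, mul_one]
  unfold ex
  have eD1 : ∑' h, wt b (inn (2 ^ k)) ∅ (massA κ k 0) h =
      ∑' h, wt b (inn (2 ^ k)) ∅ (massA κ k 0) h * 1 := by simp only [mul_one]
  rw [eD1]
  have he : 0 < Real.exp (-κ ^ 2) := Real.exp_pos _
  have hCz := Cz_nonneg κ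
  rw [div_le_iff₀ (lt_of_lt_of_le (mul_pos he hB0) hD)]
  calc _ ≤ Cz κ * A + Cz κ * B := hN
    _ = Cz κ * (A / B + 1) * B := by
      field_simp
    _ ≤ Cz κ * (Real.exp (b * (80 * Real.exp 72)) + 1) * B := by
      refine mul_le_mul_of_nonneg_right (mul_le_mul_of_nonneg_left ?_ hCz) hB0.le
      linarith
    _ = Cz κ / Real.exp (-κ ^ 2) * (Real.exp (b * (80 * Real.exp 72)) + 1) *
        (Real.exp (-κ ^ 2) * B) := by
      field_simp
    _ ≤ _ := by
      refine mul_le_mul_of_nonneg_left hD ?_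
      positivity

/-- the difference between the mass on the mean and the mass along the path -/
noncomputable def Rj (κ : ℝ) (k j : ℕ) (t : ℝ) (h : V (2 ^ k) → ℤ) : ℝ :=
  ∑ i ∈ Finset.range j, Qd κ k i h + t * Qd κ k j h

lemma sq_sum_Qd (κ : ℝ) (k j : ℕ) : SQ fun h => ∑ i ∈ Finset.range j, Qd κ k i h := by
  induction j with
  | zero => simpa using (SQ.zero (U := V (2 ^ k)))
  | succ j ih =>
    simp only [Finset.sum_range_succ]
    exact ih.add (sq_Qd κ k j)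

lemma sq_Rj (κ : ℝ) (k j : ℕ) {t : ℝ} (ht : 0 ≤ t) : SQ (Rj κ k j t) :=
  (sq_sum_Qd κ k j).add ((sq_Qd κ k j).smul ht)

lemma massA_sum (κ : ℝ) {k j : ℕ} (hj : j ≤ k) (h : V (2 ^ k) → ℤ) :
    massA κ k j h = massA κ k 0 h + ∑ i ∈ Finset.range j, Qd κ k i h := by
  induction j with
  | zero => simp
  | succ j ih =>
    rw [massA_succ κ hj, ih (by omega), Finset.sum_range_succ]
    ring

/-- **MOM4** -/
theorem mom4 {b : ℝ} (hb : 0 ≤ b) : MOM4 b := by
  intro κ hκ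
  refine ⟨48 * (Cz κ / Real.exp (-κ ^ 2) * (Real.exp (b * (80 * Real.exp 72)) + 1)) + 1, ?_,
    fun k j hj t ht0 ht1 φ hφ => ?_⟩
  · have := Cz_nonneg κ
    positivity
  have eQ : (fun h : V (2 ^ k) → ℤ => (1 - t) * massA κ k j h + t * massA κ k (j + 1) h) =
      fun h => massA κ k 0 h + Rj κ k j t h := by
    funext h
    unfold Rj
    rw [massA_succ κ hj, massA_sum κ (by omega : j ≤ k)]
    ring
  rw [eQ]
  have hc := coe_massA hκ (k := k) (Nat.zero_le k)
  have hm := ex_mono (n := 2 ^ k) hb (subset_refl (inn (2 ^ k))) (subset_refl ∅)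
    (sq_massA κ k 0) (sq_Rj κ k j ht0) hc (inc_cosh φ)
  have hQ : SQ fun h => massA κ k 0 h + Rj κ k j t h := (sq_massA κ k 0).add (sq_Rj κ k j ht0)
  have hSG : SG (wt b (inn (2 ^ k)) ∅ fun h => massA κ k 0 h + Rj κ k j t h) :=
    sg_wt hb hQ.nonneg hQ.even (hc.mono subset_rfl subset_rfl fun h => by
      have := (sq_Rj κ k j ht0).nonneg h
      linarith)
  have h1 : ex b (inn (2 ^ k)) ∅ (fun h => massA κ k 0 h + Rj κ k j t h)
      (fun h => pr φ h ^ 4) ≤
      48 * ex b (inn (2 ^ k)) ∅ (fun h => massA κ k 0 h + Rj κ k j t h)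
        (fun h => Real.cosh (pr φ h)) := by
    unfold ex
    rw [← mul_div_assoc, ← tsum_mul_left]
    refine div_le_div_of_nonneg_right ?_ (tsum_nonneg fun h => hSG.nonneg h)
    have g4 : Gr fun h : V (2 ^ k) → ℤ => pr φ h ^ 4 := by
      have := ((Gr.lin φ).mul (Gr.lin φ)).mul ((Gr.lin φ).mul (Gr.lin φ))
      refine this.mono fun h => le_of_eq ?_
      congr 1
      show pr φ h ^ 4 = pr φ h * pr φ h * (pr φ h * pr φ h)
      ring
    have gc : Gr fun h : V (2 ^ k) → ℤ => 48 * Real.cosh (pr φ h) := (Gr.cosh φ).const_mul 48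
    have s1 := hSG.sum g4
    have s2 : Summable fun h => 48 * (wt b (inn (2 ^ k)) ∅
        (fun h => massA κ k 0 h + Rj κ k j t h) h * Real.cosh (pr φ h)) :=
      (hSG.sum (Gr.cosh φ)).mul_left 48
    refine s1.tsum_le_tsum (fun h => ?_) s2
    have h2 := mul_le_mul_of_nonneg_left (pow4_le_cosh (pr φ h)) (hSG.nonneg h)
    linarith
  have h2 : ex b (inn (2 ^ k)) ∅ (fun h => massA κ k 0 h + Rj κ k j t h)
      (fun h => Real.cosh (pr φ h)) ≤ _ := hm.trans (mean_cosh hb hκ hφ)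
  linarith

end main

end Vale.Agent.P159.TM.H551
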